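import Mathlib
import Vale.Agent.P116.KF.RectH
import Vale.Agent.P116.KF.FL
import Vale.Agent.P116.G.Out

/-!
P116, full Koebe, END': gluing functions over the nodes of one level, and length-area.
-/

open Set Filter Topology Metric Bornology MeasureTheory
open scoped Real ENNReal

namespace Vale.Agent.P116.EndP

open H906 PBC Slow KF G

/-- majorants: from local to global -/
lemma maj_of_local {G : Set ℂ} {u ρ : ℂ → ℝ} {ι : Type*} {O : ι → Set ℂ} (hO : ∀ i, IsOpen (O i))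
    (hcov : G ⊆ ⋃ i, O i)
    (hloc : ∀ i x y, segment ℝ x y ⊆ G ∩ O i → ∀ M, (∀ z ∈ segment ℝ x y, ρ z ≤ M) →
      |u x - u y| ≤ M * ‖x - y‖) :
    ∀ x y, segment ℝ x y ⊆ G → ∀ M, (∀ z ∈ segment ℝ x y, ρ z ≤ M) →
      |u x - u y| ≤ M * ‖x - y‖ := by
  intro x y hxy M hM
  have hcpt : IsCompact (segment ℝ x y) := by
    rw [segment_eq_image']
    exact isCompact_Icc.image (by fun_prop)
  obtain ⟨δ, hδ, hball⟩ := lebesgue_number_lemma_of_metric hcpt hO (hxy.trans hcov)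
  obtain ⟨n, hn⟩ := exists_nat_gt (‖x - y‖ / δ)
  have hn0 : (0:ℝ) < n := lt_of_le_of_lt (by positivity) hn
  set p : ℝ → ℂ := fun t => x + t • (y - x) with hp
  have hpm : ∀ t ∈ Icc (0:ℝ) 1, p t ∈ segment ℝ x y := by
    intro t ht
    rw [segment_eq_image']
    exact ⟨t, ht, rfl⟩
  have hpd : ∀ s t, p s - p t = (s - t) • (y - x) := by
    intro s t
    simp only [hp]
    module
  have hstep : ∀ k : ℕ, k ≤ n → |u x - u (p (k / n))| ≤ M * ((k / n) * ‖x - y‖) := by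
    intro k
    induction k with
    | zero =>
      intro _
      simp [hp]
    | succ k ih =>
      intro hk
      have h1 := ih (by omega)
      have hk0 : (0:ℝ) ≤ k := Nat.cast_nonneg k
      have hkn : (k:ℝ) + 1 ≤ n := by exact_mod_cast hk
      have ha : (k:ℝ) / n ∈ Icc (0:ℝ) 1 := ⟨by positivity, by rw [div_le_one hn0]; linarith⟩
      have hb : ((k + 1 : ℕ) : ℝ) / n ∈ Icc (0:ℝ) 1 := by
        push_cast
        exact ⟨by positivity, by rw [div_le_one hn0]; linarith⟩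
      obtain ⟨i, hi⟩ := hball _ (hpm _ ha)
      have hseg : segment ℝ (p (k / n)) (p ((k + 1 : ℕ) / n)) ⊆ segment ℝ x y :=
        (convex_segment x y).segment_subset (hpm _ ha) (hpm _ hb)
      have hnorm : ‖p (k / n) - p ((k + 1 : ℕ) / n)‖ = 1 / n * ‖x - y‖ := by
        rw [hpd, norm_smul, Real.norm_eq_abs, norm_sub_rev y x]
        have : (k:ℝ) / n - ((k + 1 : ℕ) : ℝ) / n = - (1 / n) := by
          push_cast
          ring
        rw [this, abs_neg, abs_of_nonneg (by positivity)]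
      have hlt : ‖p (k / n) - p ((k + 1 : ℕ) / n)‖ < δ := by
        rw [hnorm]
        rw [div_lt_iff₀ hδ] at hn
        rw [one_div, inv_mul_lt_iff₀ hn0]
        linarith
      have hsub : segment ℝ (p (k / n)) (p ((k + 1 : ℕ) / n)) ⊆ O i := by
        refine Subset.trans ((convex_ball (p (k / n)) δ).segment_subset (mem_ball_self hδ) ?_) hi
        rw [mem_ball, dist_comm, dist_eq_norm]
        exact hlt
      have h2 := hloc i _ _ (subset_inter (hseg.trans hxy) hsub) M (fun z hz => hM z (hseg hz))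
      rw [hnorm] at h2
      have e : u x - u (p ((k + 1 : ℕ) / n)) =
          (u x - u (p (k / n))) + (u (p (k / n)) - u (p ((k + 1 : ℕ) / n))) := by ring
      rw [e]
      refine (abs_add_le _ _).trans ((add_le_add h1 h2).trans (le_of_eq ?_))
      push_cast
      ring
  have h3 := hstep n le_rfl
  have e1 : (n:ℝ) / n = 1 := div_self hn0.ne'
  have e2 : p 1 = y := by simp [hp]
  rw [e1, e2, one_mul] at h3
  exact h3

open Classical in
/-- the glued function: `v w` on the nodes `w ≠ Q` of level `m`, and `u` elsewhere -/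
noncomputable def gl (K : Set ℂ) (m : ℕ) (Q : Set ℂ) (u : ℂ → ℝ) (v : Set ℂ → ℂ → ℝ) (z : ℂ) : ℝ :=
  if z ∈ lev K m ∧ nd K m z ≠ Q then v (nd K m z) z else u z

section

variable {K : Set ℂ} {m : ℕ} {x : ℂ}

lemma nd_of_mem_nodes {w : Set ℂ} (hw : w ∈ nodes K m) {z : ℂ} (hz : z ∈ w) : nd K m z = w := by
  obtain ⟨y, hy, rfl⟩ := hw
  exact nd_eq hz

lemma sub_lev_of_nodes {w : Set ℂ} (hw : w ∈ nodes K m) : w ⊆ lev K m := by
  obtain ⟨y, hy, rfl⟩ := hw
  exact nd_subset m y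

lemma nd_mem_nodes (hK : IsCompact K) {z : ℂ} (hz : z ∈ lev K m) : nd K m z ∈ nodes K m := by
  obtain ⟨y, hy, hzy⟩ := exists_node hK hz
  exact ⟨y, hy, (nd_eq hzy).symm⟩

lemma gl_of_mem {Q : Set ℂ} {u : ℂ → ℝ} {v : Set ℂ → ℂ → ℝ} {w : Set ℂ} (hw : w ∈ nodes K m)
    (hwQ : w ≠ Q) {z : ℂ} (hz : z ∈ w) : gl K m Q u v z = v w z := by
  have h1 := nd_of_mem_nodes hw hz
  rw [gl, if_pos ⟨sub_lev_of_nodes hw hz, by rw [h1]; exact hwQ⟩, h1]

lemma gl_of_notMem {Q : Set ℂ} {u : ℂ → ℝ} {v : Set ℂ → ℂ → ℝ} {z : ℂ} (hz : z ∉ lev K m) :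
    gl K m Q u v z = u z := by
  rw [gl, if_neg fun h => hz h.1]

lemma gl_of_mem_Q {Q : Set ℂ} (hQ : Q ∈ nodes K m) {u : ℂ → ℝ} {v : Set ℂ → ℂ → ℝ} {z : ℂ}
    (hz : z ∈ Q) : gl K m Q u v z = u z := by
  rw [gl, if_neg fun h => h.2 (nd_of_mem_nodes hQ hz)]

/-- the neighbourhood of a node which does not meet the other nodes of the level -/
def nb (K : Set ℂ) (m : ℕ) (i : nodes K m) : Set ℂ := (⋃ w ∈ nodes K m \ {i.1}, w)ᶜ

lemma isOpen_nb (hK : IsCompact K) (i : nodes K m) : IsOpen (nb K m i) := by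
  refine (Set.Finite.isClosed_biUnion ((finite_nodes hK m).subset sdiff_subset) ?_).isOpen_compl
  rintro _ ⟨⟨y, hy, rfl⟩, -⟩
  exact (isCompact_nd hK m y).isClosed

lemma mem_nb_of_mem {i : nodes K m} {z : ℂ} (hz : z ∈ i.1) : z ∈ nb K m i := by
  intro hcon
  obtain ⟨w, ⟨hw, hwi⟩, hzw⟩ := mem_iUnion₂.1 hcon
  exact hwi ((nd_of_mem_nodes hw hzw).symm.trans (nd_of_mem_nodes i.2 hz))

lemma mem_nb_of_notMem {i : nodes K m} {z : ℂ} (hz : z ∉ lev K m) : z ∈ nb K m i := by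
  intro hcon
  obtain ⟨w, ⟨hw, hwi⟩, hzw⟩ := mem_iUnion₂.1 hcon
  exact hz (sub_lev_of_nodes hw hzw)

lemma mem_or_of_nb (hK : IsCompact K) {i : nodes K m} {z : ℂ} (hz : z ∈ nb K m i) :
    z ∈ i.1 ∨ z ∉ lev K m := by
  by_contra hcon
  push Not at hcon
  obtain ⟨y, hy, hzy⟩ := exists_node hK hcon.2
  refine hz (mem_iUnion₂.2 ⟨nd K m y, ⟨⟨y, hy, rfl⟩, fun h => hcon.1 ?_⟩, hzy⟩)
  rw [mem_singleton_iff] at h
  rw [← h]
  exact hzy

lemma iUnion_nb (hK : IsCompact K) (i₀ : nodes K m) : (⋃ i, nb K m i) = univ := by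
  refine eq_univ_of_forall fun z => ?_
  by_cases hz : z ∈ lev K m
  · exact mem_iUnion.2 ⟨⟨nd K m z, nd_mem_nodes hK hz⟩, mem_nb_of_mem (mem_connectedComponentIn hz)⟩
  · exact mem_iUnion.2 ⟨i₀, mem_nb_of_notMem hz⟩

end

/-- ENDP-6: gluing over the nodes of level `m`, and length-area -/
theorem endp4 {K : Set ℂ} (hK : IsCompact K) (_hf : Full K) {R : ℝ} (hR : 0 < R)
    (hRK : lev K 0 ⊆ closedBall 0 R) {x : ℂ} (hx : x ∈ K) {m : ℕ}
    {u ρ : ℂ → ℝ} {ε : ℝ} (hε : 0 ≤ ε) (hu : ContinuousOn u Kᶜ) (hρ : ContinuousOn ρ Kᶜ)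
    (hρ0 : ∀ z ∈ Kᶜ, 0 ≤ ρ z) (huρ : UGr Kᶜ u ρ)
    (hen : ∫⁻ z in Kᶜ, ENNReal.ofReal (ρ z ^ 2) ≤ ENNReal.ofReal ε) {R' : ℝ} (hRR' : R ≤ R')
    (hu0 : ∀ z, R' ≤ ‖z‖ → u z ≤ 0) (hu1 : ∀ z ∈ nd K m x, z ∉ K → 1 / 2 ≤ u z)
    {v : Set ℂ → ℂ → ℝ}
    (hv : ∀ w ∈ nodes K m, w ≠ nd K m x → ContinuousOn (v w) Kᶜ ∧ (∀ z, z ∉ w → v w z = u z) ∧
      (∀ z ∈ frontier w, v w z = u z) ∧ UGr Kᶜ (v w) ρ ∧ ∃ B, ∀ z ∈ w, z ∉ K → |v w z| ≤ B)
    {S : Str} (hS : G.NS K (lev K 0) S.1) (hSm : ∀ P ∈ S.1, P ⊆ lev K m)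
    (hcov : ∀ y ∈ K, ∃ P ∈ S.1, y ∈ P) {b : Set ℂ → ℝ}
    (hb : ∀ w ∈ nodes K m, w ≠ nd K m x → ∀ J : Finset (Set ℂ), (∀ P ∈ J, P ∈ S.1 ∧ P ⊆ w) →
      ∑ P ∈ J, diam (v w '' (P \ K)) ^ 2 ≤ b w)
    (hbε : ∀ J : Finset (Set ℂ), (∀ w ∈ J, w ∈ nodes K m ∧ w ≠ nd K m x) → ∑ w ∈ J, b w ≤ ε) :
    ∀ w₁ ∈ kT fk S (nd K m x), ∀ w₂ ∈ kT fk S (nd K m x),
      dist w₁ w₂ ≤ 20 * (5 * (R' + 1)) * Real.sqrt ε := by
  classical
  set Q := nd K m x with hQ
  have hQn : Q ∈ nodes K m := ⟨x, hx, rfl⟩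
  set g := gl K m Q u v with hg
  have hQc : IsCompact Q := isCompact_nd hK m x
  -- local form of the glued function
  set V : nodes K m → ℂ → ℝ := fun i => if i.1 = Q then u else v i.1 with hV
  have hgV : ∀ i, ∀ z ∈ nb K m i, g z = V i z := by
    intro i z hz
    by_cases hi : i.1 = Q
    · rw [hV]
      simp only [hi, if_true]
      rcases mem_or_of_nb hK hz with h1 | h1
      · rw [hi] at h1
        exact gl_of_mem_Q hQn h1
      · exact gl_of_notMem h1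
    · rw [hV]
      simp only [hi, if_false]
      rcases mem_or_of_nb hK hz with h1 | h1
      · exact gl_of_mem i.2 hi h1
      · rw [hg, gl_of_notMem h1, (hv i.1 i.2 hi).2.1 z fun h => h1 (sub_lev_of_nodes i.2 h)]
  have hVc : ∀ i, ContinuousOn (V i) Kᶜ := by
    intro i
    by_cases hi : i.1 = Q
    · simp only [hV, hi, if_true]
      exact hu
    · simp only [hV, hi, if_false]
      exact (hv i.1 i.2 hi).1
  have hVρ : ∀ i, UGr Kᶜ (V i) ρ := by
    intro i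
    by_cases hi : i.1 = Q
    · simp only [hV, hi, if_true]
      exact huρ
    · simp only [hV, hi, if_false]
      exact (hv i.1 i.2 hi).2.2.2.1
  have hgc : ContinuousOn g Kᶜ := by
    intro z hz
    obtain ⟨i, hi⟩ := mem_iUnion.1 ((iUnion_nb hK ⟨Q, hQn⟩).symm ▸ mem_univ z)
    have h1 : V i =ᶠ[𝓝[Kᶜ] z] g := by
      filter_upwards [mem_nhdsWithin_of_mem_nhds ((isOpen_nb hK i).mem_nhds hi)] with y hy
      exact (hgV i y hy).symm
    exact ((hVc i z hz).congr_of_eventuallyEq h1.symm (hgV i z hi))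
  have hgρ : UGr Kᶜ g ρ := by
    refine maj_of_local (isOpen_nb hK) (by rw [iUnion_nb hK ⟨Q, hQn⟩]; exact subset_univ _) ?_
    intro i a c hac M hM
    rw [hgV i a (hac (left_mem_segment ℝ a c)).2, hgV i c (hac (right_mem_segment ℝ a c)).2]
    exact hVρ i a c (hac.trans inter_subset_left) M hM
  -- pieces
  have hnode : ∀ P ∈ S.1, ∀ p ∈ P, P ⊆ nd K m p := by
    intro P hP p hp
    exact (hS.pc P hP).conn'.isPreconnected.subset_connectedComponentIn hp (hSm P hP)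
  have hSQ : ∀ P ∈ S.1, P ⊆ Q ∨ Disjoint P Q := by
    intro P hP
    by_cases hd : Disjoint P Q
    · exact Or.inr hd
    · left
      obtain ⟨p, hp, hpQ⟩ := not_disjoint_iff.1 hd
      rw [← nd_of_mem_nodes hQn hpQ]
      exact hnode P hP p hp
  set nP : Set ℂ → Set ℂ := fun P => if h : P.Nonempty then nd K m h.some else ∅ with hnP
  have hnPs : ∀ P ∈ S.1, Disjoint P Q → nP P ∈ nodes K m ∧ nP P ≠ Q ∧ P ⊆ nP P := by
    intro P hP hPQ
    have hne := (hS.pc P hP).nonempty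
    have e : nP P = nd K m hne.some := by simp only [hnP, hne, dif_pos]
    have h1 : hne.some ∈ P := hne.some_mem
    rw [e]
    refine ⟨nd_mem_nodes hK (hSm P hP h1), fun h2 => ?_, hnode P hP _ h1⟩
    refine disjoint_left.1 hPQ h1 ?_
    rw [← h2]
    exact mem_connectedComponentIn (hSm P hP h1)
  set o : Set ℂ → ℝ := fun P => diam (g '' (P \ K)) with ho
  have hoP : ∀ P ∈ S.1, Disjoint P Q → g '' (P \ K) = v (nP P) '' (P \ K) := by
    intro P hP hPQ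
    obtain ⟨h1, h2, h3⟩ := hnPs P hP hPQ
    exact image_congr fun z hz => gl_of_mem h1 h2 (h3 hz.1)
  have hR'0 : 0 < R' + 1 := by linarith
  have hlev : lev K 0 ⊆ ball 0 (R' + 1) :=
    hRK.trans (closedBall_subset_ball (by linarith))
  have hSub : ⋃₀ S.1 ⊆ lev K 0 := sUnion_subset fun P hP => hS.sub P hP
  refine rectH (K := K) (Q := Q) (ρ := ρ) (u := g) (o := o) (R := R' + 1) S.2 (kmap fk S) hε
    (by positivity) hQc (isPreconnected_nd m x) hSQ ?_ (frontier_nd_disjoint m x)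
    (fun P hP => (hS.pc P hP).fr) ?_ (hgc.mono inter_subset_left) ?_ ?_
    (hρ.mono inter_subset_left) (fun z hz => hρ0 z hz.1) ?_ ?_ ?_ ?_ ?_
  · intro y hy
    obtain ⟨P, hP, hyP⟩ := hcov y hy
    exact Or.inr ⟨P, hP, hyP⟩
  · exact union_subset ((G.nd_sub_lev0 m x).trans hlev) (hSub.trans hlev)
  · intro z hz
    have hzQ : z ∈ Q := hQc.isClosed.frontier_subset hz
    rw [hg, gl_of_mem_Q hQn hzQ]
    exact hu1 z hzQ fun h => disjoint_left.1 (frontier_nd_disjoint m x) hz h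
  · intro z hz
    have h1 : z ∉ lev K m := by
      intro h2
      have h3 := hlev (lev_anti (Nat.zero_le m) h2)
      rw [mem_ball, dist_zero_right] at h3
      linarith
    rw [hg, gl_of_notMem h1]
    exact hu0 z (by linarith)
  · intro a c hac B hB
    exact hgρ a c (hac.trans inter_subset_left) B hB
  · exact (lintegral_mono_set (inter_subset_left.trans inter_subset_left)).trans hen
  · intro P hP hPQ a ha c hc
    have hPc := (hS.pc P hP).cpt.isClosed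
    obtain ⟨h1, h2, h3⟩ := hnPs P hP hPQ
    have hfr := (hS.pc P hP).fr
    obtain ⟨B, hB⟩ := (hv _ h1 h2).2.2.2.2
    have hbd : Bornology.IsBounded (g '' (P \ K)) := by
      rw [hoP P hP hPQ]
      refine (Metric.isBounded_closedBall (x := (0:ℝ)) (r := B)).subset ?_
      rintro _ ⟨z, hz, rfl⟩
      rw [mem_closedBall, dist_zero_right, Real.norm_eq_abs]
      exact hB z (h3 hz.1) hz.2
    rw [← Real.dist_eq]
    exact dist_le_diam_of_mem hbd
      ⟨a, ⟨hPc.frontier_subset ha, fun h => disjoint_left.1 hfr ha h⟩, rfl⟩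
      ⟨c, ⟨hPc.frontier_subset hc, fun h => disjoint_left.1 hfr hc h⟩, rfl⟩
  · intro J hJ
    rw [← Finset.sum_fiberwise_of_maps_to (s := J) (t := J.image nP) (g := nP)
      (fun P hP => Finset.mem_image_of_mem _ hP)]
    refine le_trans (Finset.sum_le_sum (g := b) fun w hw => ?_) (hbε (J.image nP) ?_)
    · obtain ⟨P₀, hP₀, rfl⟩ := Finset.mem_image.1 hw
      obtain ⟨h1, h2, -⟩ := hnPs P₀ (hJ P₀ hP₀).1 (hJ P₀ hP₀).2
      refine le_trans (le_of_eq ?_) (hb _ h1 h2 (J.filter fun P => nP P = nP P₀) ?_)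
      · refine Finset.sum_congr rfl fun P hP => ?_
        rw [Finset.mem_filter] at hP
        simp only [ho]
        rw [hoP P (hJ P hP.1).1 (hJ P hP.1).2, hP.2]
      · intro P hP
        rw [Finset.mem_filter] at hP
        refine ⟨(hJ P hP.1).1, ?_⟩
        rw [← hP.2]
        exact (hnPs P (hJ P hP.1).1 (hJ P hP.1).2).2.2
    · intro w hw
      obtain ⟨P₀, hP₀, rfl⟩ := Finset.mem_image.1 hw
      obtain ⟨h1, h2, -⟩ := hnPs P₀ (hJ P₀ hP₀).1 (hJ P₀ hP₀).2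
      exact ⟨h1, h2⟩
  · exact kT_bdd fk S hR'0 (hSub.trans (hlev.trans ball_subset_closedBall)) subset_rfl

end Vale.Agent.P116.EndP
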